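import Vale.Agent.P078.Transfer.BuildKernel

/-!
# The graph model of an element of the normaliser algebra
-/

namespace Vale.Agent.P078.Transfer

open ComplexInnerProductSpace
open Filter Topology WeakDual
open scoped Matrix
open Vale.Agent.P078 Vale.Agent.P078.General Vale.Agent.P078.Finite Vale.Agent.P078.Mss

universe u

variable {H : Type u} [NormedAddCommGroup H] [InnerProductSpace ℂ H] [CompleteSpace H]
variable {M : VonNeumannAlgebra H} {A : StarSubalgebra ℂ (H →L[ℂ] H)} {Ω : H}

lemma chars_compact (hA : IsMASAIn M A) : CompactSpace (Chars A) := by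
  letI := masaCStar hA
  infer_instance

lemma chars_t2 (A : StarSubalgebra ℂ (H →L[ℂ] H)) : T2Space (Chars A) := inferInstance

lemma chars_totallySeparated (hA : IsMASAIn M A) : TotallySeparatedSpace (Chars A) := by
  classical
  refine totallySeparatedSpace_iff_exists_isClopen.2 (fun χ φ hne => ?_)
  obtain ⟨p, hpA, hp, hpne⟩ : ∃ p ∈ A, IsStarProjection p ∧ evA χ p ≠ evA φ p := by
    by_contra! hcon
    refine hne (evA_ext ?_)
    have step : ∀ (n : ℕ) (b : H →L[ℂ] H) (R : ℝ), b ∈ A → IsSelfAdjoint b → ‖b‖ ≤ R →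
        ‖evA χ b - evA φ b‖ ≤ 2 * R / 2 ^ n := by
      intro n
      induction n with
      | zero =>
        intro b R _ _ hR
        rw [pow_zero, div_one]
        linarith [norm_sub_le (evA χ b) (evA φ b), evA_norm_le hA χ b, evA_norm_le hA φ b]
      | succ n ih =>
        intro b R hbA hb hR
        obtain ⟨b1, e, heA, he, hb1A, hb1s, hnb, hb1⟩ := hA.halving b R hbA hb hR
        have h1e : (1 - e) ∈ A := sub_mem (one_mem A) heA
        have e1 := hcon e heA he
        have e2 := hcon (1 - e) h1e he.one_sub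
        have e0 : b = b1 + (((R / 2 : ℝ) : ℂ)) • e + (-((R / 2 : ℝ) : ℂ)) • (1 - e) := by
          rw [hb1, Complex.coe_smul, neg_smul, Complex.coe_smul]
          simp only [smul_sub]
          abel
        have hs1 : ∀ (c : ℂ) (a : H →L[ℂ] H), a ∈ A → c • a ∈ A := fun c a ha =>
          A.toSubalgebra.smul_mem ha c
        have e3 : ∀ ξ : Chars A, evA ξ b = evA ξ b1 + (((R / 2 : ℝ) : ℂ)) * evA ξ e
            + (-((R / 2 : ℝ) : ℂ)) * evA ξ (1 - e) := fun ξ => by
          conv_lhs => rw [e0]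
          rw [evA_add ξ (add_mem hb1A (hs1 _ _ heA)) (hs1 _ _ h1e),
            evA_add ξ hb1A (hs1 _ _ heA), evA_smul ξ _ heA, evA_smul ξ _ h1e]
        rw [e3, e3, e1, e2]
        calc ‖_‖ = ‖evA χ b1 - evA φ b1‖ := by congr 1; ring
          _ ≤ 2 * (R / 2) / 2 ^ n := ih b1 (R / 2) hb1A hb1s hnb
          _ = _ := by rw [pow_succ]; ring
    have hsa : ∀ b ∈ A, IsSelfAdjoint b → evA χ b = evA φ b := by
      intro b hbA hb
      rw [← sub_eq_zero, ← norm_eq_zero]
      refine le_antisymm ?_ (norm_nonneg _)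
      refine ge_of_tendsto (x := Filter.atTop) (f := fun n : ℕ => 2 * ‖b‖ / 2 ^ n) ?_
        (Filter.Eventually.of_forall (fun n => step n b ‖b‖ hbA hb le_rfl))
      exact tendsto_const_nhds.div_atTop (tendsto_pow_atTop_atTop_of_one_lt one_lt_two)
    intro a ha
    have h2 : Complex.I • (a - star a) ∈ A :=
      A.toSubalgebra.smul_mem (sub_mem ha (star_mem ha) : a - star a ∈ A) _
    have e1 := hsa _ (add_mem ha (star_mem ha)) (IsSelfAdjoint.add_star_self a)
    have e2 := hsa _ h2 (by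
      simp [IsSelfAdjoint, star_smul, Complex.conj_I, sub_eq_add_neg, add_comm])
    rw [evA_add χ ha (star_mem ha), evA_add φ ha (star_mem ha)] at e1
    rw [evA_smul χ _ (sub_mem ha (star_mem ha)), evA_smul φ _ (sub_mem ha (star_mem ha))] at e2
    have e3 := mul_left_cancel₀ Complex.I_ne_zero e2
    have hsub : ∀ ξ : Chars A, evA ξ (a - star a) = evA ξ a - evA ξ (star a) := fun ξ => by
      rw [eq_sub_iff_add_eq, ← evA_add ξ (sub_mem ha (star_mem ha)) (star_mem ha), sub_add_cancel]
    rw [hsub, hsub] at e3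
    linear_combination (e1 + e3) / 2
  have hv := fun ξ : Chars A => evA_proj hA ξ hpA hp
  refine ⟨{ξ | evA ξ p = evA χ p}, ⟨isClosed_eq (continuous_evA p) continuous_const, ?_⟩, rfl,
    fun e => hpne e.symm⟩
  rw [show {ξ : Chars A | evA ξ p = evA χ p} = {ξ | evA ξ p = evA φ p}ᶜ by
    ext ξ
    rcases hv ξ with h1 | h1 <;> rcases hv χ with h2 | h2 <;> rcases hv φ with h3 | h3 <;>
      simp_all]
  exact (isClosed_eq (continuous_evA p) continuous_const).isOpen_compl

/-- The element of `A` with a given Gelfand transform. -/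
noncomputable def ghat (hA : IsMASAIn M A) (f : C(Chars A, ℂ)) : H →L[ℂ] H :=
  letI := masaCStar hA
  (((gelfandStarTransform A).symm f : A) : H →L[ℂ] H)

lemma ghat_mem (hA : IsMASAIn M A) (f : C(Chars A, ℂ)) : ghat hA f ∈ A := by
  letI := masaCStar hA
  exact ((gelfandStarTransform A).symm f : A).2

lemma evA_ghat (hA : IsMASAIn M A) (f : C(Chars A, ℂ)) (ψ : Chars A) :
    evA ψ (ghat hA f) = f ψ := by
  letI := masaCStar hA
  rw [ghat, evA_coe]
  exact DFunLike.congr_fun ((gelfandStarTransform A).apply_symm_apply f) ψ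

lemma evA_inj (hA : IsMASAIn M A) {a b : H →L[ℂ] H} (ha : a ∈ A) (hb : b ∈ A)
    (he : ∀ ψ : Chars A, evA ψ a = evA ψ b) : a = b := by
  letI := masaCStar hA
  have : (⟨a, ha⟩ : A) = ⟨b, hb⟩ := by
    refine (gelfandStarTransform A).injective (ContinuousMap.ext (fun ψ => ?_))
    have := he ψ
    rwa [evA_of_mem ψ ha, evA_of_mem ψ hb] at this
  exact congrArg Subtype.val this

/-- A real function as a complex one. -/
noncomputable def toC {K : Type*} [TopologicalSpace K] (f : C(K, ℝ)) : C(K, ℂ) :=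
  ⟨fun ψ => (f ψ : ℂ), by fun_prop⟩

/-- The trace on continuous real functions of the characters. -/
noncomputable def traceMap (hA : IsMASAIn M A) (Ω : H) : C(Chars A, ℝ) →ₗ[ℝ] ℝ where
  toFun f := (⟪Ω, ghat hA (toC f) Ω⟫).re
  map_add' f g := by
    have e : ghat hA (toC (f + g)) = ghat hA (toC f) + ghat hA (toC g) := by
      refine evA_inj hA (ghat_mem hA _) (add_mem (ghat_mem hA _) (ghat_mem hA _)) (fun ψ => ?_)
      rw [evA_add ψ (ghat_mem hA _) (ghat_mem hA _), evA_ghat, evA_ghat, evA_ghat]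
      simp [toC]
    rw [e, add_apply, inner_add_right, Complex.add_re]
  map_smul' r f := by
    have e : ghat hA (toC (r • f)) = (r : ℂ) • ghat hA (toC f) := by
      refine evA_inj hA (ghat_mem hA _) (A.toSubalgebra.smul_mem (ghat_mem hA _) _) (fun ψ => ?_)
      rw [evA_smul ψ _ (ghat_mem hA _), evA_ghat, evA_ghat]
      simp [toC]
    rw [e, smul_apply, inner_smul_right, Complex.re_ofReal_mul]
    rfl

/-- Word product. -/
def wordOp {L : ℕ} (s : Fin L → (H →L[ℂ] H)) : List (Fin L) → (H →L[ℂ] H)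
  | [] => 1
  | i :: w => s i * wordOp s w

variable (h : FinSetting M A Ω) {L : ℕ} (s b : Fin L → (H →L[ℂ] H))
  (hs : ∀ i, s i ∈ M ∧ IsSelfAdjoint (s i) ∧ s i * s i = 1 ∧ ∀ a ∈ A, s i * a * s i ∈ A)
  (hb : ∀ i, b i ∈ A) {x : H →L[ℂ] H} (hx : x = ∑ i, b i * s i) (hxs : IsSelfAdjoint x)
  (hx1 : ‖x‖ ≤ 1) (hx0 : plim h.masa x = 0)

omit [CompleteSpace H] in
lemma act_eq {K : Type*} {L : ℕ} (f : Fin L → K → K) (i : Fin L) (w : List (Fin L)) (ψ : K) :
    act f (i :: w) ψ = act f w (f i ψ) := rfl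

include hs in
lemma isU_s (i : Fin L) : IsU M A (s i) := by
  obtain ⟨h1, h2, h3, h4⟩ := hs i
  exact ⟨h1, by rw [h2.star_eq, h3], by rw [h2.star_eq, h3],
    fun a ha => by rw [h2.star_eq]; exact h4 a ha, fun a ha => by rw [h2.star_eq]; exact h4 a ha⟩

include hs in
lemma isU_word : ∀ w : List (Fin L), IsU M A (wordOp s w)
  | [] => IsU.one M A
  | i :: w => (isU_s s hs i).mul (isU_word w)

include hs in
lemma act_word (hA : IsMASAIn M A) :
    ∀ (w : List (Fin L)) (ψ : Chars A), act (fun i => hh hA (s i)) w ψ = hh hA (wordOp s w) ψ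
  | [], ψ => (hh_one ψ).symm
  | i :: w, ψ => by
    rw [act_eq, act_word hA w, wordOp, hh_mul (isU_s s hs i) (isU_word s hs w)]

include h hs hb hx in
lemma x_mem : x ∈ M :=
  hx ▸ sum_mem (fun i _ => mul_mem (h.masa.mem_M (hb i)) (hs i).1)

include h hs hb hx in
lemma X_x_apply (χ φ : Chars A) :
    X h.masa x χ φ = ∑ i, evA χ (b i) * X h.masa (s i) χ φ := by
  rw [hx, X_sum _ (fun i _ => mul_mem (h.masa.mem_M (hb i)) (hs i).1)]
  exact Finset.sum_congr rfl (fun i _ => X_mem_mul (hb i) (hs i).1 χ φ)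

include h hs hb hx hxs hx1 hx0 in
/-- The model. -/
noncomputable def model : GraphModel (Chars A) where
  L := L
  h i := hh h.masa (s i)
  h_cont i := continuous_hh _
  h_inv i ψ := by
    rw [← hh_mul (isU_s s hs i) (isU_s s hs i), (hs i).2.2.1, hh_one]
  fix_open w w' := by
    have hu := isU_word s hs w
    have hu' := isU_word s hs w'
    obtain ⟨f, hfA, hf, -, -, hiff⟩ := exists_fixed h (hu.mul hu'.adj)
    have e : {ψ : Chars A | act (fun i => hh h.masa (s i)) w ψ
        = act (fun i => hh h.masa (s i)) w' ψ} = {ψ | evA ψ f = 0}ᶜ := by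
      ext ψ
      simp only [Set.mem_ofPred_eq, Set.mem_compl_iff, act_word s hs, ← ne_eq]
      rw [show (evA ψ f ≠ 0) ↔ evA ψ f = 1 by
        rcases evA_proj h.masa ψ hfA hf with h1 | h1 <;> simp [h1], ← hiff ψ, hh_mul hu hu'.adj]
      exact ⟨fun e => by rw [e, hh_star_hh hu'], fun e => by
        conv_rhs => rw [← e]
        rw [hh_hh_star hu']⟩
    rw [e]
    exact (isClosed_eq (continuous_evA f) continuous_const).isOpen_compl
  x := Matrix.of (X h.masa x)
  x_diag ψ := by
    rw [Matrix.of_apply, X_diag h (x_mem h s b hs hb hx), om, hx0, evA_of_mem ψ (zero_mem A)]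
    exact map_zero ψ
  x_band ψ φ hne := by
    by_contra! hcon
    refine hne ?_
    rw [Matrix.of_apply, X_x_apply h s b hs hb hx]
    exact Finset.sum_eq_zero (fun i _ => by
      rw [X_unitary_eq_zero h (isU_s s hs i) (hcon i), mul_zero])
  x_bound S := X_numBound h (x_mem h s b hs hb hx) hxs hx1 S
  x_cont m w := by
    refine ⟨fun ψ i => starRingEnd ℂ (phase h.masa (wordOp s (w i)) ψ), fun ψ i => ?_,
      fun i j => ?_⟩
    · have h1 := phase_norm h (isU_word s hs (w i)) ψ
      have h2 := congrArg norm h1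
      rw [norm_mul, RCLike.norm_conj, norm_one, ← sq] at h2
      rw [RCLike.norm_conj]
      exact (sq_eq_one_iff.1 h2).resolve_right (by linarith [norm_nonneg (phase h.masa (wordOp s (w i)) ψ)])
    · refine (continuous_evA (plim h.masa (wordOp s (w i) * x * star (wordOp s (w j))))).congr
        (fun ψ => ?_)
      rw [act_word s hs, act_word s hs, Matrix.of_apply,
        X_moved h (isU_word s hs (w i)) (isU_word s hs (w j)) (x_mem h s b hs hb hx),
        Complex.conj_conj]
      have h1 := phase_norm h (isU_word s hs (w i)) ψ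
      have h2 := phase_norm h (isU_word s hs (w j)) ψ
      change om h.masa ψ _ = _
      linear_combination (-(starRingEnd ℂ (phase h.masa (wordOp s (w j)) ψ)
        * phase h.masa (wordOp s (w j)) ψ
        * om h.masa ψ (wordOp s (w i) * x * star (wordOp s (w j))))) * h1
        - om h.masa ψ (wordOp s (w i) * x * star (wordOp s (w j))) * h2
  T := traceMap h.masa Ω
  T_pos f hf := by
    have hc : Continuous (fun ψ => Real.sqrt (f ψ)) := by fun_prop
    set c := ghat h.masa (toC ⟨_, hc⟩) with hcdef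
    have hcA : c ∈ A := ghat_mem _ _
    have e : ghat h.masa (toC f) = star c * c := by
      refine evA_inj h.masa (ghat_mem _ _) (mul_mem (star_mem hcA) hcA) (fun ψ => ?_)
      rw [evA_mul ψ (star_mem hcA) hcA, evA_star h.masa ψ hcA, hcdef, evA_ghat, evA_ghat]
      simp only [toC, ContinuousMap.coe_mk, Complex.conj_ofReal]
      rw [← Complex.ofReal_mul, Real.mul_self_sqrt (hf ψ)]
    change 0 ≤ (⟪Ω, ghat h.masa (toC f) Ω⟫).re
    rw [e, ← inner_eq h]
    exact inner_self_nonneg (𝕜 := ℂ)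
  T_inv i f := by
    have hfA : ghat h.masa (toC f) ∈ A := ghat_mem _ _
    have e : ghat h.masa (toC (f.comp ⟨_, continuous_hh (hA := h.masa) (s i)⟩))
        = s i * ghat h.masa (toC f) * s i := by
      refine evA_inj h.masa (ghat_mem _ _) ((hs i).2.2.2 _ hfA) (fun ψ => ?_)
      have := evA_hh (hA := h.masa) (isU_s s hs i) ψ hfA
      rw [(hs i).2.1.star_eq] at this
      rw [← this, evA_ghat, evA_ghat]
      rfl
    change (⟪Ω, ghat h.masa (toC (f.comp _)) Ω⟫).re = (⟪Ω, ghat h.masa (toC f) Ω⟫).re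
    rw [e, h.tracial _ (mul_mem (hs i).1 (h.masa.mem_M hfA)) _ (hs i).1, ← mul_assoc,
      (hs i).2.2.1, one_mul]

include h hs hb hx hxs hx1 hx0 in
/-- An element `∑ b_i s_i` with zero expectation is described by a graph model. -/
theorem exists_model :
    ∃ (K : Type u) (_ : TopologicalSpace K) (_ : CompactSpace K) (_ : T2Space K)
      (_ : TotallySeparatedSpace K) (G : GraphModel K),
      G.T 1 = ‖Ω‖ ^ 2 ∧
      ∀ {r : ℕ} (col : K → Fin r), IsLocallyConstant col →
        ∃ p : Fin r → (H →L[ℂ] H), (∀ c, p c ∈ A ∧ IsStarProjection (p c)) ∧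
          (∀ c d, c ≠ d → p c * p d = 0) ∧ ∑ c, p c = 1 ∧
          ∀ (g : Polynomial ℝ) (hc : Continuous (G.diagVal col g)),
            G.T ⟨G.diagVal col g, hc⟩
              = (⟪Ω, (Polynomial.aeval (∑ c, p c * x * p c) g) Ω⟫).re := by
  classical
  have hA := h.masa
  refine ⟨Chars A, inferInstance, chars_compact hA, chars_t2 A, chars_totallySeparated hA,
    model h s b hs hb hx hxs hx1 hx0, ?_, ?_⟩
  · have e : ghat hA (toC 1) = 1 :=
      evA_inj hA (ghat_mem _ _) (one_mem A) (fun ψ => by rw [evA_ghat, evA_one]; simp [toC])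
    change (⟪Ω, ghat hA (toC 1) Ω⟫).re = _
    rw [e, one_apply_eq_self, @norm_sq_eq_re_inner ℂ]
    rfl
  intro r col hcol
  let ind : Fin r → C(Chars A, ℂ) := fun c =>
    ⟨fun ψ => if col ψ = c then 1 else 0, (hcol.comp (fun d => if d = c then (1 : ℂ) else 0)).continuous⟩
  let p : Fin r → (H →L[ℂ] H) := fun c => ghat hA (ind c)
  have hpA : ∀ c, p c ∈ A := fun c => ghat_mem _ _
  have hev : ∀ c ψ, evA ψ (p c) = if col ψ = c then 1 else 0 := fun c ψ => evA_ghat _ _ _
  have hpM : ∀ c, p c ∈ M := fun c => hA.mem_M (hpA c)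
  have hproj : ∀ c, IsStarProjection (p c) := fun c => by
    refine ⟨evA_inj hA (mul_mem (hpA c) (hpA c)) (hpA c) (fun ψ => ?_),
      evA_inj hA (star_mem (hpA c)) (hpA c) (fun ψ => ?_)⟩
    · rw [evA_mul ψ (hpA c) (hpA c), hev]; split_ifs <;> simp
    · rw [evA_star hA ψ (hpA c), hev]; split_ifs <;> simp
  have horth : ∀ c d, c ≠ d → p c * p d = 0 := fun c d hcd => by
    refine evA_inj hA (mul_mem (hpA c) (hpA d)) (zero_mem A) (fun ψ => ?_)
    rw [evA_mul ψ (hpA c) (hpA d), hev, hev, evA_of_mem ψ (zero_mem A)]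
    rw [show (⟨0, zero_mem A⟩ : A) = 0 from rfl, map_zero]
    split_ifs with h1 h2 <;> simp_all
  have htot : ∑ c, p c = 1 := by
    refine evA_inj hA (sum_mem (fun c _ => hpA c)) (one_mem A) (fun ψ => ?_)
    rw [← om_mem (hA := hA) ψ (sum_mem (fun c _ => hpA c)), om_sum ψ _ (fun c _ => hpM c),
      evA_one]
    simp [om_mem (hA := hA) ψ (hpA _), hev]
  refine ⟨p, fun c => ⟨hpA c, hproj c⟩, horth, htot, fun g hc => ?_⟩
  set G := model h s b hs hb hx hxs hx1 hx0 with hG
  have hxM : x ∈ M := x_mem h s b hs hb hx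
  set y := ∑ c, p c * x * p c with hy
  have hyM : y ∈ M := sum_mem (fun c _ => mul_mem (mul_mem (hpM c) hxM) (hpM c))
  have hmulX : ∀ z ∈ M, ∀ χ φ, X hA (x * z) χ φ
      = ∑ θ ∈ G.nbhd χ, X hA x χ θ * X hA z θ φ := by
    intro z hz χ φ
    have hnb : ∀ i, hh hA (s i) χ ∈ G.nbhd χ := fun i => by
      simp only [GraphModel.nbhd, Finset.mem_insert, Finset.mem_image, Finset.mem_univ, true_and]
      exact Or.inr ⟨i, rfl⟩
    have e1 : x * z = ∑ i, b i * (s i * z) := by
      rw [hx, Finset.sum_mul]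
      simp only [mul_assoc]
    rw [e1, X_sum _ (fun i _ => mul_mem (hA.mem_M (hb i)) (mul_mem (hs i).1 hz))]
    simp only [X_x_apply h s b hs hb hx, Finset.sum_mul]
    rw [Finset.sum_comm (s := G.nbhd χ)]
    refine Finset.sum_congr rfl (fun i _ => ?_)
    rw [X_mem_mul (hb i) (mul_mem (hs i).1 hz), X_unitary_mul h (isU_s s hs i) hz,
      Finset.sum_eq_single_of_mem _ (hnb i) (fun θ _ hne => by
        rw [X_unitary_eq_zero h (isU_s s hs i) (Ne.symm hne), mul_zero, zero_mul]), mul_assoc]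
  have hpow : ∀ (k : ℕ) χ φ, X hA (y ^ k) χ φ = G.wpow col k χ φ := by
    intro k
    induction k with
    | zero =>
      intro χ φ
      rw [pow_zero, X_one h, GraphModel.wpow]
      split_ifs <;> rfl
    | succ k ih =>
      intro χ φ
      have hk : y ^ k ∈ M := pow_mem hyM k
      have hpk : ∀ c, p c * y ^ k ∈ M := fun c => mul_mem (hpM c) hk
      have e : y ^ (k + 1) = ∑ c, p c * (x * (p c * y ^ k)) := by
        rw [pow_succ', hy, Finset.sum_mul]
        simp only [mul_assoc]
      rw [e, X_sum _ (fun c _ => mul_mem (hpM c) (mul_mem hxM (hpk c))), GraphModel.wpow]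
      rw [Finset.sum_congr rfl (fun c _ => X_mem_mul (hpA c) (mul_mem hxM (hpk c)) χ φ)]
      simp only [hev, ite_mul, one_mul, zero_mul, Finset.sum_ite_eq, Finset.mem_univ, if_true]
      rw [hmulX _ (hpk _)]
      refine Finset.sum_congr rfl (fun θ _ => ?_)
      rw [X_mem_mul (hpA _) hk, hev, ih]
      split_ifs with h1 h2 h3
      · simp [hG, model]
      · exact absurd h1.symm h2
      · exact absurd h3.symm h1
      · simp
  set Y := Polynomial.aeval y g with hY
  have hYs : Y = ∑ k ∈ Finset.range (g.natDegree + 1), (g.coeff k : ℂ) • y ^ k := by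
    rw [hY, Polynomial.aeval_eq_sum_range]
    exact Finset.sum_congr rfl (fun k _ => (Complex.coe_smul _ _).symm)
  have hYM : Y ∈ M := hYs ▸ sum_mem (fun k _ => smul_mem_vna _ (pow_mem hyM k))
  have hEY : plim hA Y ∈ A := plim_mem hA hYM
  have e : ghat hA (toC ⟨G.diagVal col g, hc⟩)
      = (1 / 2 : ℂ) • (plim hA Y + star (plim hA Y)) := by
    refine evA_inj hA (ghat_mem _ _)
      (A.toSubalgebra.smul_mem (add_mem hEY (star_mem hEY) : plim hA Y + star (plim hA Y) ∈ A) _) (fun ψ => ?_)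
    rw [evA_ghat, evA_smul ψ _ (add_mem hEY (star_mem hEY)), evA_add ψ hEY (star_mem hEY),
      evA_star hA ψ hEY, Complex.add_conj]
    have : evA ψ (plim hA Y)
        = ∑ k ∈ Finset.range (g.natDegree + 1), (g.coeff k : ℂ) * G.wpow col k ψ ψ := by
      change om hA ψ Y = _
      rw [hYs, om_sum ψ _ (fun k _ => smul_mem_vna _ (pow_mem hyM k))]
      refine Finset.sum_congr rfl (fun k _ => ?_)
      rw [om_smul ψ _ (pow_mem hyM k), ← X_diag h (pow_mem hyM k), hpow]
    rw [this]
    simp [toC, GraphModel.diagVal, Complex.re_sum]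
  change (⟪Ω, ghat hA (toC ⟨G.diagVal col g, hc⟩) Ω⟫).re = _
  have hEM : plim hA Y ∈ M := hA.mem_M hEY
  rw [e, smul_apply, add_apply, inner_smul_right, inner_add_right, inner_plim h hYM,
    ← inner_conj_symm Ω (star (plim hA Y) Ω), ContinuousLinearMap.star_eq_adjoint,
    ContinuousLinearMap.adjoint_inner_left, inner_plim h hYM]
  simp [Complex.mul_re, Complex.add_re]
  rw [re_inner_symm (Y Ω)]
  ring

end Vale.Agent.P078.Transfer
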