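import Vale.Agent.P078.Finite.Split
import Vale.Agent.P078.Finite.Expect

/-!
# Characters of a MASA and its unitary normalisers
-/

namespace Vale.Agent.P078.Transfer

open ComplexInnerProductSpace
open Filter Topology WeakDual
open Vale.Agent.P078 Vale.Agent.P078.General Vale.Agent.P078.Finite

universe u

variable {H : Type u} [NormedAddCommGroup H] [InnerProductSpace ℂ H] [CompleteSpace H]
variable {M : VonNeumannAlgebra H} {A : StarSubalgebra ℂ (H →L[ℂ] H)} {Ω : H}

/-- The space of characters of `A`. -/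
abbrev Chars (A : StarSubalgebra ℂ (H →L[ℂ] H)) : Type u := characterSpace ℂ A

lemma masa_isClosed (hA : IsMASAIn M A) : IsClosed (A : Set (H →L[ℂ] H)) := by
  rw [hA, ← M.centralizer_centralizer]
  exact (Set.isClosed_centralizer _).inter (Set.isClosed_centralizer _)

/-- `A` as a commutative C*-algebra. -/
@[reducible]
noncomputable def masaCStar (hA : IsMASAIn M A) : CommCStarAlgebra A :=
  { StarSubalgebra.cstarAlgebra A (h_closed := masa_isClosed hA) with
    mul_comm := fun a b => Subtype.ext (hA.comm a.2 b.2) }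

open Classical in
/-- Value of a character, extended by zero outside `A`. -/
noncomputable def evA (χ : Chars A) (a : H →L[ℂ] H) : ℂ :=
  if h : a ∈ A then χ ⟨a, h⟩ else 0

lemma evA_of_mem (χ : Chars A) {a : H →L[ℂ] H} (ha : a ∈ A) : evA χ a = χ ⟨a, ha⟩ := by
  simp [evA, ha]

lemma evA_coe (χ : Chars A) (a : A) : evA χ (a : H →L[ℂ] H) = χ a := evA_of_mem χ a.2

lemma evA_one (χ : Chars A) : evA χ (1 : H →L[ℂ] H) = 1 := by
  rw [evA_of_mem χ (one_mem A)]
  exact map_one χ

lemma evA_mul (χ : Chars A) {a b : H →L[ℂ] H} (ha : a ∈ A) (hb : b ∈ A) :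
    evA χ (a * b) = evA χ a * evA χ b := by
  rw [evA_of_mem χ (mul_mem ha hb), evA_of_mem χ ha, evA_of_mem χ hb, ← map_mul]
  rfl

lemma evA_add (χ : Chars A) {a b : H →L[ℂ] H} (ha : a ∈ A) (hb : b ∈ A) :
    evA χ (a + b) = evA χ a + evA χ b := by
  rw [evA_of_mem χ (add_mem ha hb), evA_of_mem χ ha, evA_of_mem χ hb, ← map_add]
  rfl

lemma evA_smul (χ : Chars A) (c : ℂ) {a : H →L[ℂ] H} (ha : a ∈ A) :
    evA χ (c • a) = c * evA χ a := by
  rw [evA_of_mem χ (A.toSubalgebra.smul_mem ha c), evA_of_mem χ ha, ← smul_eq_mul, ← map_smul]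
  rfl

lemma evA_star (hA : IsMASAIn M A) (χ : Chars A) {a : H →L[ℂ] H} (ha : a ∈ A) :
    evA χ (star a) = starRingEnd ℂ (evA χ a) := by
  letI := masaCStar hA
  rw [evA_of_mem χ (star_mem ha), evA_of_mem χ ha]
  exact map_star χ (⟨a, ha⟩ : A)

lemma evA_ext {χ φ : Chars A} (h : ∀ a ∈ A, evA χ a = evA φ a) : χ = φ :=
  CharacterSpace.ext (fun a => by rw [← evA_coe, ← evA_coe]; exact h a a.2)

lemma continuous_evA (a : H →L[ℂ] H) : Continuous (fun χ : Chars A => evA χ a) := by
  by_cases h : a ∈ A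
  · simp only [fun χ : Chars A => evA_of_mem χ h]
    exact (gelfandTransform ℂ A ⟨a, h⟩).continuous
  · simp only [evA, h, dite_false]
    exact continuous_const

lemma evA_proj (hA : IsMASAIn M A) (χ : Chars A) {p : H →L[ℂ] H} (hpA : p ∈ A)
    (hp : IsStarProjection p) : evA χ p = 0 ∨ evA χ p = 1 := by
  have _ := hA
  have e : evA χ p * evA χ p = evA χ p := by rw [← evA_mul χ hpA hpA, hp.isIdempotentElem.eq]
  rcases eq_or_ne (evA χ p) 0 with h0 | h0
  · exact Or.inl h0
  · exact Or.inr (mul_left_cancel₀ h0 (by rw [e, mul_one]))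

lemma evA_norm_le (hA : IsMASAIn M A) (χ : Chars A) (a : H →L[ℂ] H) : ‖evA χ a‖ ≤ ‖a‖ := by
  letI := masaCStar hA
  by_cases h : a ∈ A
  · rw [evA_of_mem χ h]
    exact NonUnitalStarAlgHom.norm_apply_le χ (⟨a, h⟩ : A)
  · simp [evA, h]

lemma evA_re_nonneg (hA : IsMASAIn M A) (χ : Chars A) {a : H →L[ℂ] H} (ha : a ∈ A)
    (hpos : a.IsPositive) : 0 ≤ (evA χ a).re := by
  letI := masaCStar hA
  haveI := masa_isClosed hA
  rw [evA_of_mem χ ha]
  have h1 : χ ⟨a, ha⟩ ∈ spectrum ℂ (⟨a, ha⟩ : A) := AlgHom.apply_mem_spectrum χ _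
  rw [StarSubalgebra.spectrum_eq (S := A)] at h1
  have h0 : (0 : H →L[ℂ] H) ≤ a := (ContinuousLinearMap.nonneg_iff_isPositive a).2 hpos
  have hsa : IsSelfAdjoint a := hpos.isSelfAdjoint
  have h2 : (χ ⟨a, ha⟩).re ∈ spectrum ℝ a := by
    rw [← spectrum.algebraMap_mem_iff ℂ, Complex.coe_algebraMap, ← hsa.mem_spectrum_eq_re h1]
    exact h1
  exact spectrum_nonneg_of_nonneg h0 h2

/-- A unitary of `M` normalising `A`. -/
structure IsU (M : VonNeumannAlgebra H) (A : StarSubalgebra ℂ (H →L[ℂ] H))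
    (v : H →L[ℂ] H) : Prop where
  mem : v ∈ M
  sm : star v * v = 1
  ms : v * star v = 1
  conj : ∀ a ∈ A, v * a * star v ∈ A
  conj' : ∀ a ∈ A, star v * a * v ∈ A

namespace IsU

variable {v w : H →L[ℂ] H}

lemma one (M : VonNeumannAlgebra H) (A : StarSubalgebra ℂ (H →L[ℂ] H)) :
    IsU M A (1 : H →L[ℂ] H) :=
  ⟨one_mem M, by simp, by simp, fun a ha => by simpa using ha, fun a ha => by simpa using ha⟩

lemma adj (hv : IsU M A v) : IsU M A (star v) :=
  ⟨star_mem hv.mem, by simpa using hv.ms, by simpa using hv.sm,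
    fun a ha => by simpa using hv.conj' a ha, fun a ha => by simpa using hv.conj a ha⟩

lemma mul (hv : IsU M A v) (hw : IsU M A w) : IsU M A (v * w) := by
  refine ⟨mul_mem hv.mem hw.mem, ?_, ?_, fun a ha => ?_, fun a ha => ?_⟩
  · rw [StarMul.star_mul, mul_assoc, ← mul_assoc (star v), hv.sm, one_mul, hw.sm]
  · rw [StarMul.star_mul, mul_assoc, ← mul_assoc w, hw.ms, one_mul, hv.ms]
  · rw [StarMul.star_mul]
    simpa only [mul_assoc] using hv.conj _ (hw.conj a ha)
  · rw [StarMul.star_mul]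
    simpa only [mul_assoc] using hw.conj' _ (hv.conj' a ha)

lemma normaliser (hv : IsU M A v) : IsNormaliser M A v := by
  refine ⟨hv.mem, ?_, ?_, ?_, fun a ha => ⟨hv.conj a ha, hv.conj' a ha⟩⟩
  · rw [hv.sm]; exact IsStarProjection.one _
  · rw [hv.sm]; exact one_mem A
  · rw [hv.ms]; exact one_mem A

lemma norm_le (hv : IsU M A v) : ‖v‖ ≤ 1 := by
  refine ContinuousLinearMap.opNorm_le_bound _ zero_le_one (fun y => ?_)
  rw [one_mul]
  refine le_of_eq ((sq_eq_sq₀ (norm_nonneg _) (norm_nonneg _)).1 ?_)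
  rw [@norm_sq_eq_re_inner ℂ, @norm_sq_eq_re_inner ℂ, ← ContinuousLinearMap.adjoint_inner_left,
    ← ContinuousLinearMap.star_eq_adjoint, ← mul_apply_eq_comp, hv.sm, one_apply_eq_self]

end IsU

/-- Conjugation by a unitary normaliser, as a map of `A`. -/
noncomputable def alpha {v : H →L[ℂ] H} (hv : IsU M A v) : A →⋆ₐ[ℂ] A where
  toFun a := ⟨v * a * star v, hv.conj a a.2⟩
  map_one' := Subtype.ext (by simp [hv.ms])
  map_mul' a b := Subtype.ext (by
    simp only [MulMemClass.coe_mul]
    calc v * ((a : H →L[ℂ] H) * b) * star v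
        = v * a * 1 * b * star v := by simp only [mul_one, mul_assoc]
      _ = v * a * star v * (v * b * star v) := by rw [← hv.sm]; simp only [mul_assoc])
  map_zero' := Subtype.ext (by simp)
  map_add' a b := Subtype.ext (by simp [mul_add, add_mul])
  commutes' c := Subtype.ext (by
    simp [Algebra.algebraMap_eq_smul_one, hv.ms])
  map_star' a := Subtype.ext (by simp [mul_assoc])

open Classical in
/-- The homeomorphism of characters given by a unitary normaliser. -/
noncomputable def hh {M : VonNeumannAlgebra H} {A : StarSubalgebra ℂ (H →L[ℂ] H)}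
    (hA : IsMASAIn M A) (v : H →L[ℂ] H) : Chars A → Chars A :=
  letI := masaCStar hA
  if hv : IsU M A v then CharacterSpace.compContinuousMap (alpha hv) else id

variable {hA : IsMASAIn M A}

lemma continuous_hh (v : H →L[ℂ] H) : Continuous (hh hA v) := by
  unfold hh
  split
  · exact ContinuousMap.continuous _
  · exact continuous_id

lemma evA_hh {v : H →L[ℂ] H} (hv : IsU M A v) (χ : Chars A) {a : H →L[ℂ] H} (ha : a ∈ A) :
    evA (hh hA v χ) a = evA χ (v * a * star v) := by
  rw [evA_of_mem _ ha, evA_of_mem _ (hv.conj a ha)]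
  simp only [hh, dif_pos hv]
  rfl

lemma hh_mul {v w : H →L[ℂ] H} (hv : IsU M A v) (hw : IsU M A w) (χ : Chars A) :
    hh hA (v * w) χ = hh hA w (hh hA v χ) := by
  refine evA_ext (fun a ha => ?_)
  rw [evA_hh (hv.mul hw) χ ha, evA_hh hw _ ha, evA_hh hv χ (hw.conj a ha), star_mul]
  simp only [mul_assoc]

lemma hh_one (χ : Chars A) : hh hA 1 χ = χ :=
  evA_ext (fun a ha => by rw [evA_hh (IsU.one M A) χ ha]; simp)

lemma hh_star_hh {v : H →L[ℂ] H} (hv : IsU M A v) (χ : Chars A) :
    hh hA (star v) (hh hA v χ) = χ := by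
  rw [← hh_mul hv hv.adj, hv.ms, hh_one]

lemma hh_hh_star {v : H →L[ℂ] H} (hv : IsU M A v) (χ : Chars A) :
    hh hA v (hh hA (star v) χ) = χ := by
  rw [← hh_mul hv.adj hv, hv.sm, hh_one]

variable (h : FinSetting M A Ω)

/-- A character composed with the expectation. -/
noncomputable def om (hA : IsMASAIn M A) (χ : Chars A) (y : H →L[ℂ] H) : ℂ :=
  evA χ (plim hA y)


lemma om_mem (χ : Chars A) {a : H →L[ℂ] H} (ha : a ∈ A) : om hA χ a = evA χ a := by
  rw [om, plim_of_mem hA ha]

lemma om_one (χ : Chars A) : om hA χ 1 = 1 := by rw [om_mem χ (one_mem A), evA_one]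

lemma om_add (χ : Chars A) {y z : H →L[ℂ] H} (hy : y ∈ M) (hz : z ∈ M) :
    om hA χ (y + z) = om hA χ y + om hA χ z := by
  rw [om, plim_add, evA_add χ (plim_mem hA hy) (plim_mem hA hz)]; rfl

lemma om_smul (χ : Chars A) (c : ℂ) {y : H →L[ℂ] H} (hy : y ∈ M) :
    om hA χ (c • y) = c * om hA χ y := by
  rw [om, plim_smul, evA_smul χ c (plim_mem hA hy)]; rfl

lemma om_zero (χ : Chars A) : om hA χ 0 = 0 := by
  rw [om_mem χ (zero_mem A), evA_of_mem χ (zero_mem A)]
  exact map_zero χ

lemma om_sum {ι : Type*} (χ : Chars A) (s : Finset ι) {y : ι → (H →L[ℂ] H)}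
    (hy : ∀ i ∈ s, y i ∈ M) : om hA χ (∑ i ∈ s, y i) = ∑ i ∈ s, om hA χ (y i) := by
  classical
  induction s using Finset.induction with
  | empty => simp [om_zero]
  | insert j s hj ih =>
    rw [Finset.sum_insert hj, Finset.sum_insert hj, om_add χ (hy j (Finset.mem_insert_self _ _))
      (sum_mem (fun i hi => hy i (Finset.mem_insert_of_mem hi))),
      ih (fun i hi => hy i (Finset.mem_insert_of_mem hi))]

lemma om_mul_left (χ : Chars A) {a y : H →L[ℂ] H} (ha : a ∈ A) (hy : y ∈ M) :
    om hA χ (a * y) = evA χ a * om hA χ y := by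
  rw [om, plim_mul_left hA ha, evA_mul χ ha (plim_mem hA hy)]; rfl

lemma om_mul_right (χ : Chars A) {a y : H →L[ℂ] H} (ha : a ∈ A) (hy : y ∈ M) :
    om hA χ (y * a) = om hA χ y * evA χ a := by
  rw [om, plim_mul_right hA ha, evA_mul χ (plim_mem hA hy) ha]; rfl

lemma plim_star (hA : IsMASAIn M A) (y : H →L[ℂ] H) : plim hA (star y) = star (plim hA y) := by
  refine plim_eq hA (fun v w => ?_)
  have h1 : Tendsto (fun P : Part A => starRingEnd ℂ ⟪P.pinch y w, v⟫) (uf hA)
      (𝓝 (starRingEnd ℂ ⟪plim hA y w, v⟫)) :=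
    (Complex.continuous_conj.tendsto _).comp (tendsto_plim hA y w v)
  rw [inner_conj_symm] at h1
  rw [ContinuousLinearMap.star_eq_adjoint (plim hA y), ContinuousLinearMap.adjoint_inner_left]
  refine h1.congr (fun P => ?_)
  have e : P.pinch (star y) = star (P.pinch y) := by
    simp [Part.pinch, star_sum, (P.proj _).isSelfAdjoint.star_eq, mul_assoc]
  rw [inner_conj_symm, e, ContinuousLinearMap.star_eq_adjoint,
    ContinuousLinearMap.adjoint_inner_left]

lemma om_star (χ : Chars A) {y : H →L[ℂ] H} (hy : y ∈ M) :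
    om hA χ (star y) = starRingEnd ℂ (om hA χ y) := by
  rw [om, plim_star, evA_star hA χ (plim_mem hA hy)]; rfl

lemma om_re_nonneg (χ : Chars A) {y : H →L[ℂ] H} (hy : y ∈ M) (hpos : y.IsPositive) :
    0 ≤ (om hA χ y).re := by
  refine evA_re_nonneg hA χ (plim_mem hA hy) ?_
  refine (ContinuousLinearMap.isPositive_def').2
    ⟨plim_isSelfAdjoint hA hpos.isSelfAdjoint, fun v => ?_⟩
  rw [ContinuousLinearMap.reApplyInnerSelf_apply]
  refine ge_of_tendsto (x := (uf hA : Filter (Part A)))
    (f := fun P : Part A => RCLike.re ⟪P.pinch y v, v⟫)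
    ((RCLike.continuous_re.tendsto _).comp (tendsto_plim hA y v v))
    (Eventually.of_forall (fun P => ?_))
  simp only [Part.pinch, _root_.sum_apply, sum_inner, map_sum, mul_apply_eq_comp]
  refine Finset.sum_nonneg (fun i _ => ?_)
  rw [sa_inner (P.proj i).isSelfAdjoint]
  exact hpos.re_inner_nonneg_left _

include h

lemma inner_plim {y : H →L[ℂ] H} (hy : y ∈ M) : ⟪Ω, plim h.masa y Ω⟫ = ⟪Ω, y Ω⟫ := by
  have h1 : ∀ P : Part A, ⟪P.pinch y Ω, Ω⟫ = ⟪y Ω, Ω⟫ := fun P => by
    have := inner_pinch_apply h P y (one_mem M) hy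
    rw [pinch_of_mem h.masa (one_mem A), one_apply_eq_self] at this
    exact this
  have h2 : ⟪plim h.masa y Ω, Ω⟫ = ⟪y Ω, Ω⟫ :=
    tendsto_nhds_unique (tendsto_plim h.masa y Ω Ω)
      (tendsto_const_nhds.congr (fun P => (h1 P).symm))
  rw [← inner_conj_symm Ω (plim h.masa y Ω), h2, inner_conj_symm]

lemma plim_conj {v y : H →L[ℂ] H} (hv : IsU M A v) (hy : y ∈ M) :
    plim h.masa (v * y * star v) = v * plim h.masa y * star v := by
  have hA := h.masa
  have hvy : v * y * star v ∈ M := mul_mem (mul_mem hv.mem hy) (star_mem hv.mem)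
  have hE : plim h.masa y ∈ M := hA.mem_M (plim_mem hA hy)
  have hE' : plim h.masa (v * y * star v) ∈ M := hA.mem_M (plim_mem hA hvy)
  have hvE : v * plim h.masa y * star v ∈ M := mul_mem (mul_mem hv.mem hE) (star_mem hv.mem)
  refine sub_eq_zero.1 (h.faithful _ (sub_mem hE' hvE) (norm_eq_zero.1 ?_))
  refine le_antisymm (le_of_forall_pos_le_add (fun η hη => ?_)) (norm_nonneg _)
  obtain ⟨P0, hP0⟩ := tendsto_pinch h hvy (half_pos hη)
  obtain ⟨P1, hP1⟩ := tendsto_pinch h hy (half_pos hη)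
  let Q1 : Part A :=
    { n := P1.n
      e := fun i => v * P1.e i * star v
      mem := fun i => hv.conj _ (P1.mem i)
      proj := fun i => hv.normaliser.conj_proj hA (P1.mem i) (P1.proj i)
      orth := fun i j hij => by
        rw [hv.normaliser.conj_mul hA (P1.mem i), P1.orth i j hij]; simp
      total := by rw [← Finset.sum_mul, ← Finset.mul_sum, P1.total, mul_one, hv.ms] }
  obtain ⟨R, hR0, hR1⟩ := hA.exists_join P0 Q1
  let R' : Part A :=
    { n := R.n
      e := fun i => star v * R.e i * v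
      mem := fun i => hv.conj' _ (R.mem i)
      proj := fun i => by
        simpa using hv.adj.normaliser.conj_proj hA (R.mem i) (R.proj i)
      orth := fun i j hij => by
        have e := hv.adj.normaliser.conj_mul hA (b := R.e j) (R.mem i)
        rw [star_star] at e
        rw [e, R.orth i j hij]; simp
      total := by rw [← Finset.sum_mul, ← Finset.mul_sum, R.total, mul_one, hv.sm] }
  have hR' : P1 ≤ R' := fun j => by
    obtain ⟨i, hi⟩ := hR1 j
    refine ⟨i, ?_⟩
    have hi' : v * P1.e i * star v * R.e j = R.e j := hi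
    change P1.e i * (star v * R.e j * v) = star v * R.e j * v
    calc P1.e i * (star v * R.e j * v) = (star v * v) * (P1.e i * (star v * R.e j * v)) := by
          rw [hv.sm, one_mul]
      _ = star v * (v * P1.e i * star v * R.e j) * v := by simp only [mul_assoc]
      _ = _ := by rw [hi']
  have e : R.pinch (v * y * star v) = v * R'.pinch y * star v := by
    simp only [Part.pinch, Finset.mul_sum, Finset.sum_mul]
    refine Finset.sum_congr rfl (fun i _ => ?_)
    change R.e i * (v * y * star v) * R.e i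
      = v * (star v * R.e i * v * y * (star v * R.e i * v)) * star v
    symm
    calc v * (star v * R.e i * v * y * (star v * R.e i * v)) * star v
        = (v * star v) * R.e i * v * y * star v * R.e i * (v * star v) := by
          simp only [mul_assoc]
      _ = _ := by rw [hv.ms, one_mul, mul_one]; simp only [mul_assoc]
  have h1 := hP0 R hR0
  rw [e] at h1
  have h3 := hP1 R' hR'
  have hRM : R'.pinch y ∈ M := pinch_mem hA hy R'
  have h4 : ‖(v * (R'.pinch y - plim h.masa y) * star v) Ω‖ ≤ η / 2 := by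
    refine ((norm_mul_right_le h (mul_mem hv.mem (sub_mem hRM hE)) (star_mem hv.mem)).trans
      ?_).trans h3
    have h5 := norm_mul_left_le h v (R'.pinch y - plim h.masa y)
    rw [norm_star]
    calc ‖v‖ * ‖(v * (R'.pinch y - plim h.masa y)) Ω‖
        ≤ 1 * (1 * ‖(R'.pinch y - plim h.masa y) Ω‖) :=
          mul_le_mul hv.norm_le (h5.trans (mul_le_mul_of_nonneg_right hv.norm_le (norm_nonneg _)))
            (norm_nonneg _) zero_le_one
      _ = _ := by rw [one_mul, one_mul]
  have e2 : (plim h.masa (v * y * star v) - v * plim h.masa y * star v) Ω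
      = (v * (R'.pinch y - plim h.masa y) * star v) Ω
        - (v * R'.pinch y * star v - plim h.masa (v * y * star v)) Ω := by
    simp
  rw [e2, zero_add]
  exact (norm_sub_le _ _).trans (by linarith)

lemma om_conj {v y : H →L[ℂ] H} (hv : IsU M A v) (hy : y ∈ M) (χ : Chars A) :
    om h.masa χ (v * y * star v) = om h.masa (hh h.masa v χ) y := by
  rw [om, plim_conj h hv hy, om, evA_hh hv χ (plim_mem h.masa hy)]

lemma om_eq_zero_of_moved {w : H →L[ℂ] H} (hw : IsU M A w) {χ : Chars A}
    (hne : hh h.masa w χ ≠ χ) : om h.masa χ w = 0 := by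
  by_contra h0
  refine hne (evA_ext (fun a ha => ?_))
  have e : w * a = w * a * star w * w := by rw [mul_assoc _ (star w), hw.sm, mul_one]
  have h1 := congrArg (om h.masa χ) e
  rw [om_mul_right χ ha hw.mem, om_mul_left χ (hw.conj a ha) hw.mem, mul_comm] at h1
  rw [evA_hh hw χ ha]
  exact (mul_right_cancel₀ h0 h1).symm

/-- The clopen set of fixed characters of a unitary normaliser. -/
lemma exists_fixed {w : H →L[ℂ] H} (hw : IsU M A w) :
    ∃ f : H →L[ℂ] H, f ∈ A ∧ IsStarProjection f ∧ w * f ∈ A ∧ f * w = w * f ∧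
      ∀ χ : Chars A, hh h.masa w χ = χ ↔ evA χ f = 1 := by
  have hA := h.masa
  obtain ⟨f, p, ⟨hfA, hf⟩, hp, hfp, -, hsum, hwf, hsep⟩ := exists_split h hw.normaliser
  rw [hw.sm] at hsum
  have h1 : star (w * f) * (w * f) = f := by
    rw [star_mul, hf.isSelfAdjoint.star_eq, mul_assoc, ← mul_assoc (star w), hw.sm, one_mul,
      hf.isIdempotentElem.eq]
  have h2 : w * f * star w = f := by
    have e : w * f * star (w * f) = f := by rw [hA.comm hwf (star_mem hwf), h1]
    rwa [star_mul, hf.isSelfAdjoint.star_eq, ← mul_assoc, mul_assoc w f f,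
      hf.isIdempotentElem.eq] at e
  have hcomm : f * w = w * f := by
    calc f * w = w * f * star w * w := by rw [h2]
      _ = w * f := by rw [mul_assoc _ (star w), hw.sm, mul_one]
  refine ⟨f, hfA, hf, hwf, hcomm, fun χ => ⟨fun hfix => ?_, fun hev => ?_⟩⟩
  · have hp0 : ∀ i, evA χ (p i) = 0 := fun i => by
      have e : evA χ (p i) * evA χ (p i) = 0 := by
        calc evA χ (p i) * evA χ (p i) = evA χ (p i) * evA (hh h.masa w χ) (p i) := by rw [hfix]
          _ = evA χ (p i * (w * p i * star w)) := by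
              rw [evA_hh hw χ (hp i).1, evA_mul χ (hp i).1 (hw.conj _ (hp i).1)]
          _ = 0 := by rw [hsep i, evA_of_mem χ (zero_mem A)]; exact map_zero χ
      simpa using e
    have e2 := congrArg (evA χ) hsum
    rw [evA_one, evA_add χ hfA (sum_mem (fun i _ => (hp i).1))] at e2
    have e3 : evA χ (∑ i, p i) = ∑ i, evA χ (p i) := by
      rw [Fin.sum_univ_three, Fin.sum_univ_three, evA_add χ (add_mem (hp 0).1 (hp 1).1) (hp 2).1,
        evA_add χ (hp 0).1 (hp 1).1]
    simpa [e3, hp0] using e2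
  · refine evA_ext (fun a ha => ?_)
    rw [evA_hh hw χ ha]
    have e : f * (w * a * star w) * f = (w * f) * a * star (w * f) := by
      rw [star_mul, hf.isSelfAdjoint.star_eq]
      calc f * (w * a * star w) * f = f * w * a * (star w * f) := by simp only [mul_assoc]
        _ = w * f * a * (star w * f) := by rw [hcomm]
        _ = w * f * a * (star w * (w * f * star w)) := by rw [h2]
        _ = w * f * a * (star w * w * f * star w) := by simp only [mul_assoc]
        _ = _ := by rw [hw.sm, one_mul]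
    have e2 := congrArg (evA χ) e
    rw [evA_mul χ (mul_mem hfA (hw.conj a ha)) hfA, evA_mul χ hfA (hw.conj a ha),
      evA_mul χ (mul_mem hwf ha) (star_mem hwf), evA_mul χ hwf ha, mul_right_comm (evA χ (w * f)),
      ← evA_mul χ hwf (star_mem hwf), hA.comm hwf (star_mem hwf), h1, hev] at e2
    simpa using e2

lemma key_fixed {w : H →L[ℂ] H} (hw : IsU M A w) {χ : Chars A} (hfix : hh h.masa w χ = χ) :
    starRingEnd ℂ (om h.masa χ w) * om h.masa χ w = 1 ∧ ∀ y ∈ M,
      om h.masa χ (w * y) = om h.masa χ w * om h.masa χ y ∧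
      om h.masa χ (y * w) = om h.masa χ y * om h.masa χ w := by
  obtain ⟨f, hfA, hf, hwf, hcomm, hiff⟩ := exists_fixed h hw
  have hev := (hiff χ).1 hfix
  have hw1 : om h.masa χ w = evA χ (w * f) := by
    have h1 := om_mul_right (hA := h.masa) χ hfA hw.mem
    rw [om_mem χ hwf, hev, mul_one] at h1
    exact h1.symm
  refine ⟨?_, fun y hy => ⟨?_, ?_⟩⟩
  · rw [hw1, ← evA_star h.masa χ hwf, ← evA_mul χ (star_mem hwf) hwf, star_mul,
      hf.isSelfAdjoint.star_eq, mul_assoc, ← mul_assoc (star w), hw.sm, one_mul,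
      hf.isIdempotentElem.eq, hev]
  · rw [hw1, ← om_mul_left χ hwf hy, ← hcomm, mul_assoc, om_mul_left χ hfA (mul_mem hw.mem hy),
      hev, one_mul]
  · rw [hw1, ← om_mul_right χ hwf hy, ← mul_assoc, om_mul_right χ hfA (mul_mem hy hw.mem), hev,
      mul_one]

end Vale.Agent.P078.Transfer
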