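import Mathlib
import Vale.Agent.P078.Mss.Stable

/-!
# A kernel on the orbits of finitely many involutions of a compact space
-/

namespace Vale.Agent.P078.Transfer

open Vale.Agent.P078.Mss

universe u

/-- Word action. -/
def act {K : Type u} {L : ℕ} (h : Fin L → K → K) : List (Fin L) → K → K
  | [], ψ => ψ
  | i :: w, ψ => act h w (h i ψ)

/-- Finitely many involutive homeomorphisms with clopen coincidence sets, an invariant positive
functional, and a banded Hermitian kernel of norm at most one which is continuous up to phases. -/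
structure GraphModel (K : Type u) [TopologicalSpace K] where
  L : ℕ
  h : Fin L → K → K
  h_cont : ∀ i, Continuous (h i)
  h_inv : ∀ i ψ, h i (h i ψ) = ψ
  fix_open : ∀ w w' : List (Fin L), IsOpen {ψ | act h w ψ = act h w' ψ}
  x : Matrix K K ℂ
  x_diag : ∀ ψ, x ψ ψ = 0
  x_band : ∀ ψ φ, x ψ φ ≠ 0 → ∃ i, h i ψ = φ
  x_bound : ∀ S : Finset K,
    NumBound (x.submatrix (Subtype.val : {v // v ∈ S} → K) Subtype.val) 1
  x_cont : ∀ (m : ℕ) (w : Fin m → List (Fin L)), ∃ d : K → Fin m → ℂ,
    (∀ ψ i, ‖d ψ i‖ = 1) ∧ ∀ i j, Continuous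
      (fun ψ => d ψ i * starRingEnd ℂ (d ψ j) * x (act h (w i) ψ) (act h (w j) ψ))
  T : C(K, ℝ) →ₗ[ℝ] ℝ
  T_pos : ∀ f : C(K, ℝ), (∀ ψ, 0 ≤ f ψ) → 0 ≤ T f
  T_inv : ∀ (i : Fin L) (f : C(K, ℝ)),
    T (f.comp ⟨h i, h_cont i⟩) = T f

variable {K : Type u} [TopologicalSpace K]

/-- Neighbours of a point (including itself). -/
noncomputable def GraphModel.nbhd (G : GraphModel K) (ψ : K) : Finset K :=
  haveI := Classical.decEq K
  insert ψ (Finset.univ.image (fun i => G.h i ψ))

/-- Powers of the kernel pinched by a colouring. -/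
noncomputable def GraphModel.wpow (G : GraphModel K) {r : ℕ} (col : K → Fin r) : ℕ → K → K → ℂ
  | 0, ψ, φ => haveI := Classical.decEq K; if ψ = φ then 1 else 0
  | k + 1, ψ, φ => ∑ χ ∈ G.nbhd ψ, (if col ψ = col χ then G.x ψ χ else 0) * G.wpow col k χ φ

/-- A real polynomial of the pinched kernel, on the diagonal. -/
noncomputable def GraphModel.diagVal (G : GraphModel K) {r : ℕ} (col : K → Fin r)
    (g : Polynomial ℝ) (ψ : K) : ℝ :=
  ∑ k ∈ Finset.range (g.natDegree + 1), g.coeff k * (G.wpow col k ψ ψ).re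

end Vale.Agent.P078.Transfer
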