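import Vale.Agent.P078.Transfer.BuildChar
import Vale.Agent.P078.Transfer.Model

/-!
# The kernel of an operator on the orbits of the characters
-/

namespace Vale.Agent.P078.Transfer

open ComplexInnerProductSpace
open Filter Topology WeakDual
open scoped Matrix
open Vale.Agent.P078 Vale.Agent.P078.General Vale.Agent.P078.Finite Vale.Agent.P078.Mss

universe u

variable {H : Type u} [NormedAddCommGroup H] [InnerProductSpace ℂ H] [CompleteSpace H]
variable {M : VonNeumannAlgebra H} {A : StarSubalgebra ℂ (H →L[ℂ] H)} {Ω : H}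

/-- Two characters in one orbit of the unitary normalisers. -/
def orbit (hA : IsMASAIn M A) : Setoid (Chars A) where
  r χ φ := ∃ v, IsU M A v ∧ hh hA v χ = φ
  iseqv :=
    ⟨fun χ => ⟨1, IsU.one M A, hh_one χ⟩,
      fun {χ φ} ⟨v, hv, e⟩ => ⟨star v, hv.adj, by rw [← e, hh_star_hh hv]⟩,
      fun {χ φ ψ} ⟨v, hv, e⟩ ⟨w, hw, e'⟩ => ⟨v * w, hv.mul hw, by rw [hh_mul hv hw, e, e']⟩⟩

/-- Chosen point of the orbit. -/
noncomputable def base (hA : IsMASAIn M A) (χ : Chars A) : Chars A :=
  (Quotient.mk (orbit hA) χ).out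

lemma base_rel (hA : IsMASAIn M A) (χ : Chars A) :
    ∃ v, IsU M A v ∧ hh hA v (base hA χ) = χ :=
  @Quotient.mk_out _ (orbit hA) χ

/-- Chosen unitary moving the base point to the point. -/
noncomputable def urep (hA : IsMASAIn M A) (χ : Chars A) : H →L[ℂ] H :=
  (base_rel hA χ).choose

lemma urep_isU (hA : IsMASAIn M A) (χ : Chars A) : IsU M A (urep hA χ) :=
  (base_rel hA χ).choose_spec.1

lemma hh_urep (hA : IsMASAIn M A) (χ : Chars A) : hh hA (urep hA χ) (base hA χ) = χ :=
  (base_rel hA χ).choose_spec.2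

lemma hh_star_urep (hA : IsMASAIn M A) (χ : Chars A) :
    hh hA (star (urep hA χ)) χ = base hA χ := by
  conv_lhs => arg 3; rw [← hh_urep hA χ]
  rw [hh_star_hh (urep_isU hA χ)]

lemma base_hh {hA : IsMASAIn M A} {v : H →L[ℂ] H} (hv : IsU M A v) (χ : Chars A) :
    base hA (hh hA v χ) = base hA χ := by
  unfold base
  exact congrArg Quotient.out (Quotient.sound (s := orbit hA)
    ⟨star v, hv.adj, hh_star_hh hv χ⟩)

open Classical in
/-- The kernel of an element of `M`. -/
noncomputable def X (hA : IsMASAIn M A) (y : H →L[ℂ] H) (χ φ : Chars A) : ℂ :=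
  if base hA χ = base hA φ then om hA (base hA χ) (urep hA χ * y * star (urep hA φ)) else 0

variable {hA : IsMASAIn M A}

lemma conj_mem_M {χ φ : Chars A} {y : H →L[ℂ] H} (hy : y ∈ M) :
    urep hA χ * y * star (urep hA φ) ∈ M :=
  mul_mem (mul_mem (urep_isU hA χ).mem hy) (star_mem (urep_isU hA φ).mem)

lemma X_of_ne {y : H →L[ℂ] H} {χ φ : Chars A} (hne : base hA χ ≠ base hA φ) :
    X hA y χ φ = 0 := if_neg hne

lemma X_of_eq {y : H →L[ℂ] H} {χ φ : Chars A} (he : base hA χ = base hA φ) :
    X hA y χ φ = om hA (base hA χ) (urep hA χ * y * star (urep hA φ)) := if_pos he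

lemma X_sum {ι : Type*} (s : Finset ι) {y : ι → (H →L[ℂ] H)} (hy : ∀ i ∈ s, y i ∈ M)
    (χ φ : Chars A) : X hA (∑ i ∈ s, y i) χ φ = ∑ i ∈ s, X hA (y i) χ φ := by
  by_cases he : base hA χ = base hA φ
  · simp only [X_of_eq he]
    rw [← om_sum _ _ (fun i hi => conj_mem_M (hy i hi)), Finset.mul_sum, Finset.sum_mul]
  · simp [X_of_ne he]

lemma X_smul (c : ℂ) {y : H →L[ℂ] H} (hy : y ∈ M) (χ φ : Chars A) :
    X hA (c • y) χ φ = c * X hA y χ φ := by
  by_cases he : base hA χ = base hA φ
  · rw [X_of_eq he, X_of_eq he, mul_smul_comm, smul_mul_assoc, om_smul _ _ (conj_mem_M hy)]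
  · simp [X_of_ne he]

lemma X_star {y : H →L[ℂ] H} (hy : y ∈ M) (χ φ : Chars A) :
    X hA (star y) χ φ = starRingEnd ℂ (X hA y φ χ) := by
  by_cases he : base hA χ = base hA φ
  · rw [X_of_eq he, X_of_eq he.symm, ← he, ← om_star _ (conj_mem_M hy)]
    congr 1
    simp only [star_mul, star_star, mul_assoc]
  · rw [X_of_ne he, X_of_ne (Ne.symm he), map_zero]

lemma X_mem_mul {a y : H →L[ℂ] H} (ha : a ∈ A) (hy : y ∈ M) (χ φ : Chars A) :
    X hA (a * y) χ φ = evA χ a * X hA y χ φ := by
  by_cases he : base hA χ = base hA φ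
  · have hu := urep_isU hA χ
    have e : urep hA χ * (a * y) * star (urep hA φ)
        = (urep hA χ * a * star (urep hA χ)) * (urep hA χ * y * star (urep hA φ)) := by
      symm
      calc (urep hA χ * a * star (urep hA χ)) * (urep hA χ * y * star (urep hA φ))
          = urep hA χ * a * (star (urep hA χ) * urep hA χ) * y * star (urep hA φ) := by
            simp only [mul_assoc]
        _ = _ := by rw [hu.sm, mul_one]; simp only [mul_assoc]
    rw [X_of_eq he, X_of_eq he, e, om_mul_left _ (hu.conj a ha) (conj_mem_M hy),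
      ← evA_hh (hA := hA) hu _ ha, hh_urep]
  · simp [X_of_ne he]

variable (h : FinSetting M A Ω)
include h

lemma X_unitary_eq_zero {v : H →L[ℂ] H} (hv : IsU M A v) {χ φ : Chars A}
    (hne : hh h.masa v χ ≠ φ) : X h.masa v χ φ = 0 := by
  by_cases he : base h.masa χ = base h.masa φ
  · have hu := urep_isU h.masa χ
    have hu' := urep_isU h.masa φ
    rw [X_of_eq he]
    refine om_eq_zero_of_moved h ((hu.mul hv).mul hu'.adj) (fun e => hne ?_)
    rw [hh_mul (hu.mul hv) hu'.adj, hh_mul hu hv, hh_urep] at e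
    have e' := congrArg (hh h.masa (urep h.masa φ)) e
    rwa [hh_hh_star hu', he, hh_urep] at e'
  · exact X_of_ne he

open Classical in
lemma X_one (χ φ : Chars A) : X h.masa 1 χ φ = if χ = φ then 1 else 0 := by
  split_ifs with e
  · subst e
    rw [X_of_eq rfl, mul_one, (urep_isU h.masa χ).ms, om_one]
  · exact X_unitary_eq_zero h (IsU.one M A) (by rwa [hh_one])

lemma X_unitary_mul {v z : H →L[ℂ] H} (hv : IsU M A v) (hz : z ∈ M) (χ φ : Chars A) :
    X h.masa (v * z) χ φ = X h.masa v χ (hh h.masa v χ) * X h.masa z (hh h.masa v χ) φ := by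
  set θ := hh h.masa v χ with hθ
  have hb : base h.masa θ = base h.masa χ := base_hh hv χ
  by_cases he : base h.masa χ = base h.masa φ
  · have hu := urep_isU h.masa χ
    have hu' := urep_isU h.masa θ
    have hw : IsU M A (urep h.masa χ * v * star (urep h.masa θ)) := (hu.mul hv).mul hu'.adj
    have hfix : hh h.masa (urep h.masa χ * v * star (urep h.masa θ)) (base h.masa χ)
        = base h.masa χ := by
      rw [hh_mul (hu.mul hv) hu'.adj, hh_mul hu hv, hh_urep, ← hθ, hh_star_urep, hb]
    have e : urep h.masa χ * (v * z) * star (urep h.masa φ)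
        = (urep h.masa χ * v * star (urep h.masa θ))
          * (urep h.masa θ * z * star (urep h.masa φ)) := by
      symm
      calc (urep h.masa χ * v * star (urep h.masa θ))
            * (urep h.masa θ * z * star (urep h.masa φ))
          = urep h.masa χ * v * (star (urep h.masa θ) * urep h.masa θ) * z
            * star (urep h.masa φ) := by simp only [mul_assoc]
        _ = _ := by rw [hu'.sm, mul_one]; simp only [mul_assoc]
    rw [X_of_eq he, X_of_eq hb.symm, X_of_eq (hb.trans he), e,
      ((key_fixed h hw hfix).2 _ (conj_mem_M hz)).1, hb]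
  · rw [X_of_ne he, X_of_ne (y := z) (fun e => he (hb.symm.trans e)), mul_zero]

lemma X_diag {y : H →L[ℂ] H} (hy : y ∈ M) (ψ : Chars A) :
    X h.masa y ψ ψ = om h.masa ψ y := by
  rw [X_of_eq rfl, om_conj h (urep_isU h.masa ψ) hy, hh_urep]

omit h in
/-- The phase of `ψ` moved by `g`. -/
noncomputable def phase (hA : IsMASAIn M A) (g : H →L[ℂ] H) (ψ : Chars A) : ℂ :=
  om hA (base hA ψ) (urep hA (hh hA g ψ) * star (urep hA ψ * g))

lemma phase_fix {g : H →L[ℂ] H} (hg : IsU M A g) (ψ : Chars A) :
    hh h.masa (urep h.masa (hh h.masa g ψ) * star (urep h.masa ψ * g)) (base h.masa ψ)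
      = base h.masa ψ := by
  have hu := urep_isU h.masa ψ
  have hug := hu.mul hg
  have e1 : hh h.masa (urep h.masa (hh h.masa g ψ)) (base h.masa ψ) = hh h.masa g ψ := by
    conv_rhs => rw [← hh_urep h.masa (hh h.masa g ψ)]
    rw [base_hh hg]
  have e2 : hh h.masa (urep h.masa ψ * g) (base h.masa ψ) = hh h.masa g ψ := by
    rw [hh_mul hu hg, hh_urep]
  rw [hh_mul (urep_isU _ _) hug.adj, e1, ← e2, hh_star_hh hug]

lemma phase_norm {g : H →L[ℂ] H} (hg : IsU M A g) (ψ : Chars A) :
    starRingEnd ℂ (phase h.masa g ψ) * phase h.masa g ψ = 1 :=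
  (key_fixed h ((urep_isU _ _).mul ((urep_isU h.masa ψ).mul hg).adj) (phase_fix h hg ψ)).1

lemma X_moved {g g' y : H →L[ℂ] H} (hg : IsU M A g) (hg' : IsU M A g') (hy : y ∈ M)
    (ψ : Chars A) : X h.masa y (hh h.masa g ψ) (hh h.masa g' ψ)
      = phase h.masa g ψ * starRingEnd ℂ (phase h.masa g' ψ)
        * om h.masa ψ (g * y * star g') := by
  have hu := urep_isU h.masa ψ
  have hw := (urep_isU h.masa (hh h.masa g ψ)).mul (hu.mul hg).adj
  have hw' := (urep_isU h.masa (hh h.masa g' ψ)).mul (hu.mul hg').adj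
  have hb : base h.masa (hh h.masa g ψ) = base h.masa ψ := base_hh hg ψ
  have hb' : base h.masa (hh h.masa g' ψ) = base h.masa ψ := base_hh hg' ψ
  have hz : g * y * star g' ∈ M := mul_mem (mul_mem hg.mem hy) (star_mem hg'.mem)
  rw [X_of_eq (hb.trans hb'.symm), hb]
  set U := urep h.masa (hh h.masa g ψ) with hU
  set U' := urep h.masa (hh h.masa g' ψ) with hU'
  set u := urep h.masa ψ with hu'
  have hcore : u * (g * y * star g') * star u ∈ M :=
    mul_mem (mul_mem hu.mem hz) (star_mem hu.mem)
  have e : U * y * star U'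
      = (U * star (u * g)) * (u * (g * y * star g') * star u) * star (U' * star (u * g')) := by
    symm
    calc (U * star (u * g)) * (u * (g * y * star g') * star u) * star (U' * star (u * g'))
        = U * (star (u * g) * (u * g)) * y * (star (u * g') * (u * g')) * star U' := by
          simp only [star_mul, star_star, mul_assoc]
      _ = _ := by rw [(hu.mul hg).sm, (hu.mul hg').sm, mul_one, mul_one]
  have hfix' := phase_fix h hg' ψ
  have hfixs : hh h.masa (star (U' * star (u * g'))) (base h.masa ψ) = base h.masa ψ := by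
    conv_lhs => arg 3; rw [← hfix']
    exact hh_star_hh hw' _
  rw [e, ((key_fixed h hw'.adj hfixs).2 _ (mul_mem hw.mem hcore)).2,
    ((key_fixed h hw (phase_fix h hg ψ)).2 _ hcore).1, om_star _ hw'.mem, om_conj h hu hz,
    hh_urep]
  unfold phase
  rw [← hU, ← hU', ← hu']
  ring

/-- The kernel of a Hermitian contraction has numerical range in `[-1, 1]`. -/
lemma X_numBound {x : H →L[ℂ] H} (hx : x ∈ M) (hxs : IsSelfAdjoint x) (hx1 : ‖x‖ ≤ 1)
    (S : Finset (Chars A)) :
    NumBound ((Matrix.of (X h.masa x)).submatrix (Subtype.val : {v // v ∈ S} → Chars A)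
      Subtype.val) 1 := by
  classical
  refine ⟨?_, fun v => ?_⟩
  · ext i j
    simp only [Matrix.conjTranspose_apply, Matrix.submatrix_apply, Matrix.of_apply]
    rw [← starRingEnd_apply, ← X_star hx, hxs.star_eq]
  let W : Chars A → (H →L[ℂ] H) := fun b =>
    ∑ i ∈ Finset.univ.filter (fun i : {v // v ∈ S} => base h.masa i.1 = b),
      starRingEnd ℂ (v i) • urep h.masa i.1
  have hWM : ∀ b, W b ∈ M := fun b =>
    sum_mem (fun i _ => smul_mem_vna _ (urep_isU h.masa i.1).mem)
  let B : Finset (Chars A) :=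
    Finset.univ.image (fun i : {v // v ∈ S} => base h.masa i.1)
  have key : ∀ y ∈ M,
      ∑ i, starRingEnd ℂ (v i) * ∑ j, X h.masa y i.1 j.1 * v j
        = ∑ b ∈ B, om h.masa b (W b * y * star (W b)) := by
    intro y hy
    rw [← Finset.sum_fiberwise_of_maps_to (g := fun i : {v // v ∈ S} => base h.masa i.1)
      (t := B) (fun i hi => Finset.mem_image_of_mem _ hi)]
    refine Finset.sum_congr rfl (fun b _ => ?_)
    have e : W b * y * star (W b) = ∑ i ∈ Finset.univ.filter
        (fun i : {v // v ∈ S} => base h.masa i.1 = b), ∑ j ∈ Finset.univ.filter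
        (fun i : {v // v ∈ S} => base h.masa i.1 = b),
        (starRingEnd ℂ (v i) * v j) • (urep h.masa i.1 * y * star (urep h.masa j.1)) := by
      simp only [W, star_sum, star_smul, Finset.sum_mul, Finset.mul_sum, smul_mul_assoc,
        mul_smul_comm]
      rw [Finset.sum_comm]
      simp [Finset.smul_sum, smul_smul, mul_comm]
    rw [e, om_sum _ _ (fun i _ => sum_mem (fun j _ => smul_mem_vna _ (conj_mem_M hy)))]
    refine Finset.sum_congr rfl (fun i hi => ?_)
    rw [om_sum _ _ (fun j _ => smul_mem_vna _ (conj_mem_M hy)), Finset.mul_sum]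
    rw [Finset.mem_filter] at hi
    rw [← Finset.sum_subset (Finset.subset_univ (Finset.univ.filter
      (fun i : {v // v ∈ S} => base h.masa i.1 = b)))]
    · refine Finset.sum_congr rfl (fun j hj => ?_)
      rw [Finset.mem_filter] at hj
      rw [om_smul _ _ (conj_mem_M hy), X_of_eq (hi.2.trans hj.2.symm), hi.2]
      ring
    · intro j _ hj
      have : base h.masa i.1 ≠ base h.masa j.1 := fun e => hj (by simp [← e, hi.2])
      simp [X_of_ne this]
  have hone : ∑ b ∈ B, (om h.masa b (W b * 1 * star (W b))).re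
      = ∑ i, Complex.normSq (v i) := by
    rw [← Complex.re_sum, ← key 1 (one_mem M), Complex.re_sum]
    refine Finset.sum_congr rfl (fun i _ => ?_)
    simp [X_one h, Complex.normSq_apply, Complex.mul_re]
  have hpos : ∀ y : H →L[ℂ] H, y ∈ M → y.IsPositive →
      ∀ b, 0 ≤ (om h.masa b (W b * y * star (W b))).re := fun y hy hp b => by
    refine om_re_nonneg b (mul_mem (mul_mem (hWM b) hy) (star_mem (hWM b))) ?_
    have := hp.conj_adjoint (W b)
    rw [← ContinuousLinearMap.star_eq_adjoint] at this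
    rw [mul_assoc]
    exact this
  have hb1 : ∀ w, |(⟪x w, w⟫).re| ≤ (⟪w, w⟫).re := fun w => by
    refine (Complex.abs_re_le_norm _).trans ((norm_inner_le_norm _ _).trans ?_)
    rw [← RCLike.re_to_complex, ← @norm_sq_eq_re_inner ℂ, sq]
    exact mul_le_mul_of_nonneg_right ((x.le_opNorm w).trans
      (mul_le_of_le_one_left (norm_nonneg _) hx1)) (norm_nonneg _)
  have hm : (1 - x).IsPositive := by
    refine (ContinuousLinearMap.isPositive_def').2
      ⟨(IsSelfAdjoint.one _).sub hxs, fun w => ?_⟩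
    rw [ContinuousLinearMap.reApplyInnerSelf_apply, sub_apply, one_apply_eq_self, inner_sub_left,
      RCLike.re_to_complex, Complex.sub_re]
    linarith [(abs_le.1 (hb1 w)).2]
  have hp : (1 + x).IsPositive := by
    refine (ContinuousLinearMap.isPositive_def').2
      ⟨(IsSelfAdjoint.one _).add hxs, fun w => ?_⟩
    rw [ContinuousLinearMap.reApplyInnerSelf_apply, add_apply, one_apply_eq_self, inner_add_left,
      RCLike.re_to_complex, Complex.add_re]
    linarith [(abs_le.1 (hb1 w)).1]
  have hxv : star v ⬝ᵥ ((Matrix.of (X h.masa x)).submatrix (Subtype.val : {v // v ∈ S} → Chars A)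
      Subtype.val) *ᵥ v = ∑ b ∈ B, om h.masa b (W b * x * star (W b)) := by
    rw [← key x hx]
    rfl
  rw [hxv, one_mul, Complex.re_sum, ← hone]
  have hlin : ∀ b, om h.masa b (W b * (1 + x) * star (W b))
        = om h.masa b (W b * 1 * star (W b)) + om h.masa b (W b * x * star (W b)) ∧
      om h.masa b (W b * (1 - x) * star (W b))
        = om h.masa b (W b * 1 * star (W b)) - om h.masa b (W b * x * star (W b)) := by
    intro b
    have hm1 : W b * 1 * star (W b) ∈ M :=
      mul_mem (mul_mem (hWM b) (one_mem M)) (star_mem (hWM b))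
    have hmx : W b * x * star (W b) ∈ M := mul_mem (mul_mem (hWM b) hx) (star_mem (hWM b))
    constructor
    · rw [← om_add _ hm1 hmx, ← add_mul, ← mul_add]
    · rw [eq_sub_iff_add_eq, ← om_add _ (mul_mem (mul_mem (hWM b) (sub_mem (one_mem M) hx))
        (star_mem (hWM b))) hmx, ← add_mul, ← mul_add, sub_add_cancel]
  refine abs_le.2 ⟨?_, ?_⟩
  · rw [← Finset.sum_neg_distrib]
    refine Finset.sum_le_sum (fun b _ => ?_)
    have := hpos _ (add_mem (one_mem M) hx) hp b
    rw [(hlin b).1, Complex.add_re] at this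
    linarith
  · refine Finset.sum_le_sum (fun b _ => ?_)
    have := hpos _ (sub_mem (one_mem M) hx) hm b
    rw [(hlin b).2, Complex.sub_re] at this
    linarith

end Vale.Agent.P078.Transfer
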